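import Vale.Agent.P022G.Tw.Crv
import Vale.Agent.P022S.Loc.Defs
import Vale.Agent.P022S.R.Obj

/-!
# P022S: the objects which belong to a curve
-/

set_option linter.all false

noncomputable section

namespace Vale.Agent.P022S.Tw

open NumberField IsLocalRing MvPowerSeries
open Vale.Agent.P022 Vale.Agent.P022S.R Vale.Agent.P022S.Loc
open Vale.Agent.P027M.S (Inert mx)
open Vale.Agent.P022D.Sel (M2)
open Vale.Agent.P022D.Core (PS Coef)
open Vale.Agent.P022E.Loc (Pl Rt En)
open Vale.Agent.P022E.GW (Ov Gn)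
open Vale.Agent.P022G.Tw (Sb krull rd_val)
open _root_.P022G.Sel (tI rd)

variable {O F : Type} [CommRing O] [Field F]

section nat

variable {A B : Type} [CommRing A] [CommRing B] (u : A →+* B)

theorem e8_map (s b n : A) (Φ T : M2 A) (i : Fin 8) :
    u (e8 s b n Φ T i) = e8 (u s) (u b) (u n) (Φ.map u) (T.map u) i := by
  fin_cases i <;> simp [e8]

theorem val_map {β C : Type} {τ ι : β → Type} (K : Kx O β τ ι C) (j : O →+* A)
    (w : (Σ b, τ b) → M2 A) (Φ T : C → M2 A) (x : (Σ b, τ b) ⊕ (C × Fin 8)) :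
    u (K.val j w Φ T x) = K.val (u.comp j) (fun t => (w t).map u) (fun c => (Φ c).map u)
      (fun c => (T c).map u) x := by
  rcases x with t | x
  · exact map_sub u _ _
  · refine (e8_map u _ _ _ _ _ _).trans ?_
    rw [Matrix.map_mul, Matrix.map_mul, Matrix.map_mul, Matrix.map_mul]
    rfl

variable {S : Dat O F} {L : Pl O}

theorem ent_res (hl : ∀ g, (L.r g).map S.red = mx S.rb g) (X : Obj S A) (g : GQ) (a b : Fin 2) :
    X.π (X.ρ g a b) = X.π (X.ι (L.r g a b)) := by
  rw [X.alg]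
  exact (congrFun (congrFun (X.res g) a) b).trans (congrFun (congrFun (hl g) a) b).symm

end nat

section crv

/-- the data of a representation over a discrete valuation ring of characteristic two -/
structure Cd (S : Dat O F) (L : Pl O) {V : Type} [CommRing V] (t : V) (j : O →+* V)
    (ρ : GQ →* GL (Fin 2) V) : Prop where
  res : ∀ g a b, t ∣ (ρ g : M2 V) a b - j (L.r g a b)
  lv : ∀ N, _root_.P022G.Sel.Lv (rd (tI t N) ρ) S.T L.D
  det : ∀ g, (ρ g : M2 V).det = 1
  ty : ∀ l ∈ L.W, ∃ y : V, y ^ 2 - (ρ (L.g0 l) : M2 V).trace * y + 1 = 0 ∧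
    t ∣ y - j (L.r (L.g0 l) 1 1) ∧ (ρ (L.τ l * L.g0 l) : M2 V).trace - y * (ρ (L.τ l) : M2 V).trace
      = j (L.a l) * (ρ (L.g0 l) : M2 V).trace

variable {S : Dat O F} {L : Pl O} {V : Type} [CommRing V] {t : V} {j : O →+* V}
  {ρ : GQ →* GL (Fin 2) V}

/-- a curve is unramified outside `T` -/
theorem crv_unr [IsDomain V] [IsNoetherianRing V] (ht : ¬ IsUnit t) (hc : Cd S L t j ρ) {l : ℕ}
    (hl : l ∉ S.T) {P : Ideal (𝓞 Qb)} (hP : Ov l P) {g : GQ} (hg : Inert P g) : ρ g = 1 := by
  refine Units.ext (Matrix.ext fun a b => sub_eq_zero.1 (krull ht fun N => ?_))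
  have := congrArg Units.val ((hc.lv (N + 1)).unr l hl P hP g hg)
  rw [rd_val, Units.val_one, ← P022D.R.map_one' (Ideal.Quotient.mk (tI t (N + 1)))] at this
  rw [map_sub, sub_eq_zero]
  exact congrFun (congrFun this a) b

/-- **the object of a curve modulo `t ^ (N + 1)`** -/
theorem crv_obj [IsLocalRing O] [CharP V 2] (hL : OkG L S) (hj : ∀ c, S.red c = 0 → j c = 0)
    (hc : Cd S L t j ρ) {N : ℕ} {A : Type} [CommRing A] {u : A →+* V ⧸ tI t (N + 1)}
    {ι0 : O →+* A} {π : A →+* F} (H : Sb t j N S.red u ι0 π) :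
    ∃ X : Obj S A, X.ι = ι0 ∧ X.π = π ∧ (∀ l, X.α l = 1) ∧ (∀ l, X.β l = 1) ∧
      (∀ g, (X.ρ g).map u = (ρ g : M2 V).map (Ideal.Quotient.mk (tI t (N + 1)))) ∧
      Ty (ClG L S) ∅ A X := by
  let mk := Ideal.Quotient.mk (tI t (N + 1))
  have h1 : ∀ g a b, ∃ x : A, u x = mk ((ρ g : M2 V) a b) ∧ π x = mx S.rb g a b := fun g a b => by
    obtain ⟨v, hv⟩ := hc.res g a b
    obtain ⟨x, hx⟩ := H.sur (L.r g a b) v
    refine ⟨x, by rw [hx, ← hv, add_sub_cancel], (H.res _ _ _ hx).trans ?_⟩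
    exact congrFun (congrFun (hL.lift g) a) b
  choose m hm hm' using h1
  have hm1 : ∀ g, (Matrix.of (m g) : M2 A).map u = (ρ g : M2 V).map mk :=
    fun g => Matrix.ext fun a b => hm g a b
  have mi : ∀ {M M' : M2 A}, M.map u = M'.map u → M = M' := fun h =>
    Matrix.map_injective H.inj h
  let σ : GQ →* M2 A :=
    { toFun := fun g => Matrix.of (m g)
      map_one' := mi (by
        rw [hm1, map_one, Units.val_one, P022D.R.map_one', P022D.R.map_one'])
      map_mul' := fun g h => mi (by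
        rw [Matrix.map_mul, hm1, hm1, hm1, map_mul, Units.val_mul, Matrix.map_mul]) }
  have hσ : ∀ g, (σ g).map u = (ρ g : M2 V).map mk := hm1
  have one : ∀ g, rd (tI t (N + 1)) ρ g = 1 → σ g = 1 := fun g h => mi (by
    rw [hσ, P022D.R.map_one']
    exact congrArg Units.val h)
  have one' : ∀ g, σ g = 1 → rd (tI t (N + 1)) ρ g = 1 := fun g h => Units.ext (by
    rw [rd_val, ← hσ, h, P022D.R.map_one']
    rfl)
  have alg : ∀ c, π (ι0 c) = S.red c := fun c =>
    H.res _ c 0 (by rw [H.cst, mul_zero, add_zero])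
  let X : Obj S A :=
    { ι := ι0
      π := π
      ρ := σ
      α := fun _ => 1
      β := fun _ => 1
      fin := H.fin
      loc := H.loc
      alg := alg
      res := fun g => Matrix.ext fun a b => hm' g a b
      opn := by
        have : {g | σ g = 1} = {g | rd (tI t (N + 1)) ρ g = 1} :=
          Set.ext fun g => ⟨one' g, one g⟩
        rw [this]
        exact (hc.lv (N + 1)).opn
      inv := fun _ => mul_one _
      one := fun _ => P022D.R.map_one' π
      off := fun _ _ => rfl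
      fr := rfl }
  have utr : ∀ g, u (σ g).trace = mk (ρ g : M2 V).trace := fun g => by
    rw [Matrix.trace_fin_two, Matrix.trace_fin_two, map_add, map_add]
    exact congrArg₂ _ (hm g 0 0) (hm g 1 1)
  have udet : ∀ g, (σ g).det = 1 := fun g => H.inj (by
    rw [RingHom.map_det, RingHom.mapMatrix_apply, hσ, ← RingHom.mapMatrix_apply,
      ← RingHom.map_det, hc.det, map_one, map_one])
  have two : (2 : A) = 0 := H.inj (by
    rw [map_ofNat, map_zero, ← map_ofNat mk, show (2 : V) = 0 from CharTwo.two_eq_zero, map_zero])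
  have ldet : ∀ g, ι0 (L.r g).det = 1 := fun g => H.inj (by
    have : S.red ((L.r g).det - 1) = 0 := by
      rw [map_sub, RingHom.map_det, RingHom.mapMatrix_apply, hL.lift, hL.det, map_one, sub_self]
    have := hj _ this
    rw [map_sub, map_one, sub_eq_zero] at this
    rw [H.cst, this, map_one, map_one])
  refine ⟨X, rfl, rfl, fun _ => rfl, fun _ => rfl, hσ, ⟨fun g _ => (udet g).trans (ldet g).symm,
    (udet _).trans (by linear_combination two), fun l _ => (udet _).trans (ldet _).symm,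
    fun l hl => ?_⟩, fun l hl h1 _ P hP h2 g hg =>
      one g ((hc.lv (N + 1)).unr l h1 P ⟨hl, hP, h2⟩ g hg)⟩
  obtain ⟨y, y1, ⟨v, hv⟩, y3⟩ := hc.ty l hl
  obtain ⟨x, hx⟩ := H.sur (L.r (L.g0 l) 1 1) v
  have hx' : u x = mk y := by rw [hx, ← hv, add_sub_cancel]
  refine ⟨x, H.inj ?_, (H.res _ _ _ hx).trans (congrFun (congrFun (hL.lift _) 1) 1), H.inj ?_⟩
  · show u (x ^ 2 - (σ (L.g0 l)).trace * x + (σ (L.g0 l)).det) = u 0
    rw [udet, map_zero, map_add, map_sub, map_mul, map_pow, utr, hx', map_one]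
    have := congrArg mk y1
    rwa [map_zero, map_add, map_sub, map_mul, map_pow, map_one] at this
  · show u ((σ (L.τ l * L.g0 l)).trace - x * (σ (L.τ l)).trace) =
      u (ι0 (L.a l) * ((σ (L.g0 l)).trace - 2 * x))
    rw [two, zero_mul, sub_zero, map_sub, map_mul u x, map_mul u, utr, utr, utr, hx', H.cst]
    have := congrArg mk y3
    rwa [map_sub, map_mul mk, map_mul mk] at this

end crv

end Vale.Agent.P022S.Tw
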