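import Vale.Agent.P022S.Tw.Crv
import Vale.Agent.P022S.Mod.Gw
import Vale.Agent.P022G.Rw.TanvH16

/-!
# P022S: test objects, curves and tangent vectors (the part without generators)
-/

set_option linter.all false

noncomputable section

namespace Vale.Agent.P022S.Tw

open NumberField IsLocalRing MvPowerSeries
open Vale.Agent.P022 Vale.Agent.P022S.R Vale.Agent.P022S.Loc
open Vale.Agent.P027M.S (Inert mx)
open Vale.Agent.P022D.Sel (M2)
open Vale.Agent.P022D.Core (PS Coef)
open Vale.Agent.P022E.Loc (Pl Rt En)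
open Vale.Agent.P022E.GW (Ov Gn)
open _root_.P022G.Sel (tI rd mr TanR TanS Lv Co)
open Vale.Agent.P022D.R (map_one' ker_nil opn_of_le ker_set mat_inj)
open Vale.Agent.P022G.Tw (Sb krull rd_val)
open Vale.Agent.P022S.Mod (Gen2)

variable {O F : Type} [CommRing O] [Field F] {S : Dat O F}

section obj

variable {A B B' : Type} [CommRing A] [CommRing B] [CommRing B']

theorem inv' (X : Obj S A) (l : ℕ) : X.β l * X.α l = 1 := mul_eq_one_comm.1 (X.inv l)

theorem nil (X : Obj S A) : ∃ n, RingHom.ker X.π ^ n = ⊥ :=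
  have := X.fin
  ker_nil X.π X.loc

theorem homβ {X : Obj S A} {Y : Obj S B} {u : A →+* B} (h : Hom X Y u) (l : ℕ) :
    (X.β l).map u = Y.β l := by
  have h1 : Y.α l * (X.β l).map u = 1 := by rw [← h.α, ← Matrix.map_mul, X.inv, map_one']
  rw [← one_mul ((X.β l).map u), ← inv' Y l, mul_assoc, h1, mul_one]

/-- the image of an object -/
def omap (X : Obj S A) (u : A →+* B) (p : B →+* F) (hf : Finite B)
    (hl : ∀ b, p b ≠ 0 → IsUnit b) (hp : ∀ a, p (u a) = X.π a) : Obj S B where
  ι := u.comp X.ι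
  π := p
  ρ := u.mapMatrix.toMonoidHom.comp X.ρ
  α l := (X.α l).map u
  β l := (X.β l).map u
  fin := hf
  loc := hl
  alg c := (hp _).trans (X.alg c)
  res g := by
    rw [← X.res g]
    ext i j
    exact hp _
  opn := opn_of_le X.ρ _ X.opn fun g hg => (congrArg (fun M : M2 A => M.map u) hg).trans
    (map_one' u)
  inv l := by rw [← Matrix.map_mul, X.inv, map_one']
  one l := by
    rw [← X.one l]
    ext i j
    exact hp _
  off l hl := by rw [X.off l hl, map_one']
  fr := by rw [X.fr, map_one']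

theorem hom_map (X : Obj S A) (u : A →+* B) (p : B →+* F) (hf : Finite B)
    (hl : ∀ b, p b ≠ 0 → IsUnit b) (hp : ∀ a, p (u a) = X.π a) :
    Hom X (omap X u p hf hl hp) u := ⟨fun _ => rfl, fun _ => rfl, fun _ => rfl⟩

/-- the object over a ring which embeds in a product -/
theorem pull (Y : Obj S B) (Y' : Obj S B') (u : A →+* B) (u' : A →+* B')
    (h : ∀ a, u a = 0 → u' a = 0 → a = 0) (hp : ∀ a, Y.π (u a) = Y'.π (u' a)) (ι : O →+* A)
    (m : GQ → M2 A) (a b : ℕ → M2 A) (hι : ∀ c, u (ι c) = Y.ι c) (hι' : ∀ c, u' (ι c) = Y'.ι c)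
    (hm : ∀ v, (m v).map u = Y.ρ v) (hm' : ∀ v, (m v).map u' = Y'.ρ v)
    (ha : ∀ v, (a v).map u = Y.α v) (ha' : ∀ v, (a v).map u' = Y'.α v)
    (hb : ∀ v, (b v).map u = Y.β v) (hb' : ∀ v, (b v).map u' = Y'.β v) :
    ∃ Z : Obj S A, Z.ι = ι ∧ Hom Z Y u ∧ Hom Z Y' u' := by
  have hf : Finite A := by
    have := Y.fin
    have := Y'.fin
    refine Finite.of_injective (u.prod u') ((injective_iff_map_eq_zero _).2 fun a ha => ?_)
    exact h a (congrArg Prod.fst ha) (congrArg Prod.snd ha)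
  have en : ∀ (M : M2 A) i j (c : A), M.map u i j = u c → M.map u' i j = u' c → M i j = c :=
    fun M i j c e e' => sub_eq_zero.1 (h _
      (by rw [map_sub, ← e, Matrix.map_apply, sub_self])
      (by rw [map_sub, ← e', Matrix.map_apply, sub_self]))
  refine ⟨{
    ι := ι
    π := Y.π.comp u
    ρ :=
      { toFun := m
        map_one' := mat_inj h ((hm _).trans (Y.ρ.map_one.trans (map_one' u).symm))
          ((hm' _).trans (Y'.ρ.map_one.trans (map_one' u').symm))
        map_mul' := fun g k => mat_inj h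
          (by rw [Matrix.map_mul, hm, hm, hm]; exact Y.ρ.map_mul g k)
          (by rw [Matrix.map_mul, hm', hm', hm']; exact Y'.ρ.map_mul g k) }
    α := a
    β := b
    fin := hf
    loc := fun a ha => by
      have h1 := Y.loc _ ha
      have h2 := Y'.loc (u' a) (hp a ▸ ha)
      refine isUnit_iff_mem_nonZeroDivisors_of_finite.2 (mem_nonZeroDivisors_iff_right.2 ?_)
      intro x hx
      refine h x (h1.mul_left_eq_zero.1 ?_) (h2.mul_left_eq_zero.1 ?_)
      · rw [← map_mul, hx, map_zero]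
      · rw [← map_mul, hx, map_zero]
    alg := fun c => (congrArg Y.π (hι c)).trans (Y.alg c)
    res := fun g => by
      rw [← Y.res g]
      ext i j
      exact congrArg Y.π (congrFun (congrFun (hm g) i) j)
    opn := by
      have e : {g : GQ | m g = 1} = {g | Y.ρ g = 1} ∩ {g | Y'.ρ g = 1} := by
        ext g
        constructor
        · intro hg
          exact ⟨(hm g).symm.trans ((congrArg (fun M : M2 A => M.map u) hg).trans
            (map_one' u)), (hm' g).symm.trans
            ((congrArg (fun M : M2 A => M.map u') hg).trans (map_one' u'))⟩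
        · rintro ⟨a, b⟩
          exact mat_inj h ((hm _).trans (a.trans (map_one' u).symm))
            ((hm' _).trans (b.trans (map_one' u').symm))
      exact e ▸ Y.opn.inter Y'.opn
    inv := fun l => mat_inj h (by rw [Matrix.map_mul, ha, hb, map_one']; exact Y.inv l)
      (by rw [Matrix.map_mul, ha', hb', map_one']; exact Y'.inv l)
    one := fun l => by
      rw [← Y.one l]
      ext i j
      exact congrArg Y.π (congrFun (congrFun (ha l) i) j)
    off := fun l hl => mat_inj h ((ha _).trans ((Y.off l hl).trans (map_one' u).symm))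
      ((ha' _).trans ((Y'.off l hl).trans (map_one' u').symm))
    fr := mat_inj h ((ha _).trans (Y.fr.trans (map_one' u).symm))
      ((ha' _).trans (Y'.fr.trans (map_one' u').symm)) },
    rfl, ⟨hι, hm, ha⟩, ⟨hι', hm', ha'⟩⟩

theorem closed_ty {C : Cl S} (h : Closed C) (Q : Finset ℕ) : Closed (Ty C Q) where
  push A B _ _ X Y u k hX := ⟨h.push A B X Y u k hX.1, fun l a b c P d e g f => by
    rw [← k.ρ, hX.2 l a b c P d e g f, map_one']⟩
  pull A B B' _ _ _ X Y Y' u u' k k' i hY hY' := ⟨h.pull A B B' X Y Y' u u' k k' i hY.1 hY'.1,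
    fun l a b c P d e g f => mat_inj i
      (by rw [k.ρ, hY.2 l a b c P d e g f, map_one'])
      (by rw [k'.ρ, hY'.2 l a b c P d e g f, map_one'])⟩

theorem two_obj [CharP F 2] (X : Obj S A) {g : GQ} (hg : S.rb g = 1) :
    ∃ n : ℕ, ∀ k, n ≤ k → X.ρ g ^ 2 ^ k = 1 := by
  obtain ⟨n, hn⟩ := nil X
  refine ⟨n, fun k hk => sub_eq_zero.1 (Matrix.ext fun i j => ?_)⟩
  have := Ideal.pow_le_pow_right (show n ≤ k + 1 by omega)
    (P022G.Tw.H44.two_pow X.π (M := X.ρ g) (by rw [X.res, mx, hg, Units.val_one]) k i j)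
  rwa [hn, Ideal.mem_bot] at this

/-- a map to the residue field is the evaluation at the origin -/
theorem res_eq {σ : Type} [IsLocalRing O] (hk : ∀ c, S.red c = 0 ↔ c ∈ maximalIdeal O)
    (φ : PS O σ →+* F) (h : ∀ c, φ (C c) = S.red c) (f : PS O σ) :
    φ f = S.red (constantCoeff f) := by
  obtain ⟨c, hc⟩ := S.surj (φ f)
  by_contra hn
  have h1 : IsUnit (f - C c) := by
    rw [MvPowerSeries.isUnit_iff_constantCoeff, map_sub, constantCoeff_C, ← notMem_maximalIdeal,
      ← hk, map_sub, hc, sub_eq_zero]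
    exact fun e => hn e.symm
  have := (h1.map φ).ne_zero
  rw [map_sub, h, hc, sub_self] at this
  exact this rfl

theorem ext_gen [CharP F 2] (h1 : ∀ g, S.rb g = 1) {Q : Finset ℕ} {κ : Type} {γ : κ → GQ}
    (hg : Gen2 S.T Q γ) (Y Y' : Obj S A) (hY : Unr Y Q) (hY' : Unr Y' Q)
    (h : ∀ i, Y.ρ (γ i) = Y'.ρ (γ i)) (g : GQ) : Y.ρ g = Y'.ρ g := by
  haveI := Y.fin
  have h2 : (Y.ρ.toHomUnits.prod Y'.ρ.toHomUnits) g ∈
      MonoidHom.eqLocus (MonoidHom.fst (M2 A)ˣ (M2 A)ˣ) (MonoidHom.snd _ _) := by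
    refine (Subgroup.closure_le _).2 ?_ (hg _ (Y.ρ.toHomUnits.prod Y'.ρ.toHomUnits) ?_ ?_ ?_ g)
    · rintro _ ⟨i, rfl⟩
      exact Units.ext (h i)
    · have e : {g : GQ | (Y.ρ.toHomUnits.prod Y'.ρ.toHomUnits) g = 1} =
          {g | Y.ρ g = 1} ∩ {g | Y'.ρ g = 1} := Set.ext fun g =>
        Prod.ext_iff.trans (and_congr Units.ext_iff Units.ext_iff)
      exact e ▸ Y.opn.inter Y'.opn
    · intro g
      obtain ⟨n, hn⟩ := two_obj Y (h1 g)
      obtain ⟨n', hn'⟩ := two_obj Y' (h1 g)
      exact ⟨n + n', Prod.ext (Units.ext ((Units.val_pow_eq_pow_val _ _).trans (hn _ (by omega))))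
        (Units.ext ((Units.val_pow_eq_pow_val _ _).trans (hn' _ (by omega))))⟩
    · intro l a b c P d e s f
      exact Prod.ext (Units.ext (hY l a b c P d e s f)) (Units.ext (hY' l a b c P d e s f))
  exact congrArg Units.val h2

end obj

/-- the tangent vectors with a trivial frame at one place -/
theorem cnt0 {R : Type} [CommRing R] {ρ : GQ →* GL (Fin 2) R} {T Q : Finset ℕ} {D : ℕ → Set GQ}
    (hL : Lv ρ T D) {l0 : ℕ} (hl0 : l0 ∈ T) {W : Type} (c : W → GQ → M2 R) (a : W → ℕ → M2 R)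
    (ht : ∀ v, TanR ρ T Q D (c v) (a v)) (ha : ∀ v, a v l0 = 0)
    (inj : ∀ v v', c v = c v' → a v = a v' → v = v') (hf : (TanS ρ T Q D).Finite) :
    Nat.card W * Nat.card R ^ 4 ≤ Nat.card (TanS ρ T Q D) := by
  have e4 : Nat.card (M2 R) = Nat.card R ^ 4 := by
    show Nat.card (Fin 2 → Fin 2 → R) = _
    rw [Nat.card_fun, Nat.card_fun, ← pow_mul]
    simp
  rw [← e4, ← Nat.card_prod]
  haveI : Finite (TanS ρ T Q D) := hf
  refine Nat.card_le_card_of_injective (fun x : W × M2 R => (⟨(fun g => c x.1 g +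
    (x.2 - mr ρ g * x.2 * mr ρ g⁻¹), fun l => if l ∈ T then a x.1 l + x.2 else 0),
      P022G.H16.tan_add hL (ht x.1) x.2⟩ : TanS ρ T Q D)) ?_
  rintro ⟨v, m⟩ ⟨v', m'⟩ h
  have h1 := congrArg (fun z : TanS ρ T Q D => z.1.1) h
  have h2 := congrArg (fun z : TanS ρ T Q D => z.1.2) h
  have hm : m = m' := by
    have := congrFun h2 l0
    simpa only [if_pos hl0, ha, zero_add] using this
  subst hm
  refine Prod.ext (inj v v' (funext fun g => add_right_cancel (congrFun h1 g))
    (funext fun l => ?_)) rfl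
  by_cases hl : l ∈ T
  · have := congrFun h2 l
    simp only [if_pos hl] at this
    exact add_right_cancel this
  · rw [(ht v).zero l hl, (ht v').zero l hl]

end Vale.Agent.P022S.Tw
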