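import Vale.Agent.P022S.Defs
import Vale.Agent.P022S.Tw.Base

/-!
# P022S: the values of the variables, and the universal property of the relations of level `q`
-/

set_option linter.all false

noncomputable section

namespace Vale.Agent.P022S.Tw

open NumberField IsLocalRing MvPowerSeries
open Vale.Agent.P022 Vale.Agent.P022S.R Vale.Agent.P022S.Loc
open Vale.Agent.P027M.S (Inert mx)
open Vale.Agent.P022D.Sel (M2)
open Vale.Agent.P022D.Core (PS)
open Vale.Agent.P022E.Loc (Pl)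
open Vale.Agent.P022D.R (map_one' ker_nil opn_of_le ker_set mat_inj)
open Vale.Agent.P022G (Hm KI)
open Vale.Agent.P022G.Tw.H44 (Pr)
open Vale.Agent.P022S.Mod (Gen2)

variable {O F : Type} [CommRing O] [Field F] {S : Dat O F}
variable {A B B' : Type} [CommRing A] [CommRing B] [CommRing B']

theorem wm_map (u : A →+* B) {m : ℕ} (Z : Fin m → M2 A) (s : Finset (Fin m)) :
    (wm Z s).map u = wm (fun i => (Z i).map u) s := by
  rw [wm, wm, ← RingHom.mapMatrix_apply, map_list_prod, List.map_map]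
  rfl

theorem tr_map (u : A →+* B) (M : M2 A) : u M.trace = (M.map u).trace := by
  rw [Matrix.trace_fin_two, Matrix.trace_fin_two, map_add]
  rfl

theorem det_map (u : A →+* B) (M : M2 A) : u M.det = (M.map u).det := RingHom.map_det u M

theorem sv_map (u : A →+* B) {m : ℕ} (rc : Fin m → M2 O) (j : O →+* A) (Z : Fin m → M2 A)
    (s : Sy m) : u (sv rc j Z s) = sv rc (u.comp j) (fun i => (Z i).map u) s := by
  rcases s with s | i
  · refine (map_sub u _ _).trans (congrArg (· - _) ?_)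
    rw [tr_map, wm_map]
  · exact (map_sub u _ _).trans (congrArg (· - _) (det_map u _))

theorem bv_map (u : A →+* B) {m : ℕ} (rc : Fin m → M2 O) (j : O →+* A) (Z : Fin m → M2 A)
    (s : Fin m × Fin 2 × Fin 2) : u (bv rc j Z s) = bv rc (u.comp j) (fun i => (Z i).map u) s :=
  map_sub u _ _

theorem sv_res {m : ℕ} (rc : Fin m → M2 O) (j : O →+* A) (π : A →+* F) (Z : Fin m → M2 A)
    (h : ∀ i a b, π (Z i a b) = π (j (rc i a b))) (s : Sy m) : π (sv rc j Z s) = 0 := by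
  have e : (fun i => (Z i).map π) = fun i => (rc i).map (π.comp j) :=
    funext fun i => Matrix.ext (h i)
  rw [sv_map, e]
  rcases s with s | i
  · refine sub_eq_zero.2 ?_
    rw [tr_map, wm_map]
  · exact sub_eq_zero.2 (det_map _ _).symm

theorem bv_res {m : ℕ} (rc : Fin m → M2 O) (j : O →+* A) (π : A →+* F) (Z : Fin m → M2 A)
    (h : ∀ i a b, π (Z i a b) = π (j (rc i a b))) (s : Fin m × Fin 2 × Fin 2) :
    π (bv rc j Z s) = 0 :=
  (map_sub π _ _).trans (sub_eq_zero.2 (h _ _ _))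

variable {L : Pl O} {β : Type} {τ ι' : β → Type} (K : Kx O β τ ι' L.C) {n : ℕ}
  (G : Gs S L K.g n) (r : ℕ)

theorem v0_map (u : A →+* B) (j : O →+* A) (ρ : GQ → M2 A) (α α' : ℕ → M2 A) (τ' : Fin r → GQ)
    (s : V0 τ L n S.T r) :
    u (v0 K G r j ρ α α' τ' s) = v0 K G r (u.comp j) (fun g => (ρ g).map u)
      (fun l => (α l).map u) (fun l => (α' l).map u) τ' s := by
  rcases s with x | s | s | p
  · have := val_map u K j (fun t => α' (K.l t) * ρ (K.g t) * α (K.l t))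
      (fun γ => α' γ * ρ (L.φ γ) * α γ) (fun γ => α' γ * ρ (L.τ γ) * α γ) x
    simp only [Matrix.map_mul] at this
    exact this
  · exact sv_map u _ j _ s
  · exact bv_map u (G.rcr r) j (fun i => ρ (Fin.append G.γ τ' i)) s
  · show u (α p.1 p.2.1 p.2.2 - (1 : M2 A) p.2.1 p.2.2) =
      u (α p.1 p.2.1 p.2.2) - (1 : M2 B) p.2.1 p.2.2
    rw [map_sub, ← map_one' u]
    rfl

theorem v0_congr (j : O →+* A) (ρ : GQ → M2 A) (α α' : ℕ → M2 A) {τ' τ'' : Fin r → GQ}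
    (h : ∀ i, ρ (τ' i) = ρ (τ'' i)) : v0 K G r j ρ α α' τ' = v0 K G r j ρ α α' τ'' := by
  have : (fun i => ρ (Fin.append G.γ τ' i)) = fun i => ρ (Fin.append G.γ τ'' i) := by
    funext i
    refine Fin.addCases (fun i => ?_) (fun i => ?_) i
    · rw [Fin.append_left, Fin.append_left]
    · rw [Fin.append_right, Fin.append_right, h]
  unfold v0
  rw [this]

theorem v0_res (hl : ∀ g, (L.r g).map S.red = mx S.rb g) (X : Obj S A)
    (hc : ∀ i, X.π (K.crd L S A X i) = 0) (τ' : Fin r → GQ) (hτ : ∀ i, mx S.rb (τ' i) = 1)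
    (s : V0 τ L n S.T r) : X.π (v0 K G r X.ι X.ρ X.α X.β τ' s) = 0 := by
  have h : ∀ i a b, X.π (X.ρ (Fin.append G.γ τ' i) a b) = X.π (X.ι (G.rcr r i a b)) := by
    intro i a b
    refine Fin.addCases (fun i => ?_) (fun i => ?_) i
    · rw [Gs.rcr, Fin.append_left, Fin.append_left]
      exact ent_res hl X _ a b
    · rw [Gs.rcr, Fin.append_right, Fin.append_right, X.alg]
      refine (congrFun (congrFun (X.res (τ' i)) a) b).trans ?_
      rw [hτ, ← map_one' S.red]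
      rfl
  rcases s with x | s | s | p
  · exact hc x
  · exact sv_res _ _ _ _ h s
  · exact bv_res _ _ _ _ h s
  · show X.π (X.α p.1 p.2.1 p.2.2 - (1 : M2 A) p.2.1 p.2.2) = 0
    rw [map_sub, sub_eq_zero]
    exact (congrFun (congrFun (X.one p.1) _) _).trans
      (congrFun (congrFun (map_one' X.π) _) _).symm

theorem hm_ZS {j : O →+* B} {ρ : GQ → M2 B} {α α' : ℕ → M2 B} {τ' : Fin r → GQ}
    {ψ : PS O (V0 τ L n S.T r) →+* B} (h : Hm j (v0 K G r j ρ α α' τ') ψ) (i : Fin (n + r)) :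
    (ZS K G r i).map ψ = ρ (Fin.append G.γ τ' i) := by
  ext a b
  show ψ (C _ + X _) = _
  rw [map_add, h.c, h.x]
  exact add_sub_cancel _ _

theorem hm_αS {j : O →+* B} {ρ : GQ → M2 B} {α α' : ℕ → M2 B} {τ' : Fin r → GQ}
    {ψ : PS O (V0 τ L n S.T r) →+* B} (h : Hm j (v0 K G r j ρ α α' τ') ψ) {l : ℕ} (hl : l ∈ S.T) :
    (αS τ L n S.T r l).map ψ = α l := by
  rw [αS, dif_pos hl, ← RingHom.mapMatrix_apply, map_add, map_one, ← add_sub_cancel 1 (α l),
    add_right_inj]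
  ext a b
  exact h.x _

theorem v0_hom {X : Obj S A} {Y : Obj S B} {u : A →+* B} (h : Hom X Y u) (τ' : Fin r → GQ)
    (s : V0 τ L n S.T r) :
    u (v0 K G r X.ι X.ρ X.α X.β τ' s) = v0 K G r Y.ι Y.ρ Y.α Y.β τ' s := by
  rw [v0_map, show u.comp X.ι = Y.ι from RingHom.ext h.ι,
    show (fun g => (X.ρ g).map u) = Y.ρ from funext h.ρ,
    show (fun g => (X.α g).map u) = Y.α from funext h.α,
    show (fun g => (X.β g).map u) = Y.β from funext (homβ h)]

/-- every pair of objects has a common canonical source -/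
theorem can [IsLocalRing O] [CharP F 2] (hk : ∀ c, S.red c = 0 ↔ c ∈ maximalIdeal O) {𝒞 : Cl S}
    (hC : Closed 𝒞) {Q : Finset ℕ} {τ' : Fin r → GQ} (r1 : ∀ g, S.rb g = 1)
    (hg : Gen2 S.T Q (Fin.append G.γ τ'))
    {Y : Obj S B} {Y' : Obj S B'} (hY : Ty 𝒞 Q B Y) (hY' : Ty 𝒞 Q B' Y')
    {ψ : PS O (V0 τ L n S.T r) →+* B} {ψ' : PS O (V0 τ L n S.T r) →+* B'}
    (h : Hm Y.ι (v0 K G r Y.ι Y.ρ Y.α Y.β τ') ψ) (h' : Hm Y'.ι (v0 K G r Y'.ι Y'.ρ Y'.α Y'.β τ') ψ')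
    (I : Ideal (PS O (V0 τ L n S.T r))) (hI : ∀ w, w ∈ I ↔ ψ w = 0 ∧ ψ' w = 0) :
    ∃ Z : Obj S (PS O (V0 τ L n S.T r) ⧸ I), Ty 𝒞 Q _ Z ∧
      Hm Z.ι (v0 K G r Z.ι Z.ρ Z.α Z.β τ') (Ideal.Quotient.mk I) := by
  haveI := Y.fin
  haveI := Y'.fin
  let u := Ideal.Quotient.lift I ψ fun w hw => ((hI w).1 hw).1
  let u' := Ideal.Quotient.lift I ψ' fun w hw => ((hI w).1 hw).2
  have inj : ∀ a, u a = 0 → u' a = 0 → a = 0 := fun a => by
    obtain ⟨w, rfl⟩ := Ideal.Quotient.mk_surjective a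
    exact fun e e' => Ideal.Quotient.eq_zero_iff_mem.2 ((hI w).2 ⟨e, e'⟩)
  have h1 : ∀ g, (Y.ρ.toHomUnits.prod Y'.ρ.toHomUnits) g ∈ Pr ψ ψ' := fun g => by
    refine (Subgroup.closure_le _).2 ?_ (hg _ (Y.ρ.toHomUnits.prod Y'.ρ.toHomUnits) ?_ ?_ ?_ g)
    · rintro _ ⟨i, rfl⟩
      exact ⟨ZS K G r i, hm_ZS K G r h i, hm_ZS K G r h' i⟩
    · have e : {g : GQ | (Y.ρ.toHomUnits.prod Y'.ρ.toHomUnits) g = 1} =
          {g | Y.ρ g = 1} ∩ {g | Y'.ρ g = 1} := Set.ext fun g =>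
        Prod.ext_iff.trans (and_congr Units.ext_iff Units.ext_iff)
      exact e ▸ Y.opn.inter Y'.opn
    · intro g
      obtain ⟨n, hn⟩ := two_obj Y (r1 g)
      obtain ⟨n', hn'⟩ := two_obj Y' (r1 g)
      exact ⟨n + n', Prod.ext (Units.ext ((Units.val_pow_eq_pow_val _ _).trans (hn _ (by omega))))
        (Units.ext ((Units.val_pow_eq_pow_val _ _).trans (hn' _ (by omega))))⟩
    · intro l a b c P d e s f
      exact Prod.ext (Units.ext (hY.2 l a b c P d e s f)) (Units.ext (hY'.2 l a b c P d e s f))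
  have h2 : ∀ l, ((⟨Y.α l, Y.β l, Y.inv l, inv' Y l⟩, ⟨Y'.α l, Y'.β l, Y'.inv l, inv' Y' l⟩) :
      (M2 B)ˣ × (M2 B')ˣ) ∈ Pr ψ ψ' := fun l => by
    by_cases hl : l ∈ S.T
    · exact ⟨αS τ L n S.T r l, hm_αS K G r h hl, hm_αS K G r h' hl⟩
    · exact ⟨1, (map_one' _).trans (Y.off l hl).symm, (map_one' _).trans (Y'.off l hl).symm⟩
  choose m hm hm' using h1
  choose b hb hb' using fun l => (Pr ψ ψ').inv_mem (h2 l)
  choose a ha ha' using h2
  obtain ⟨Z, z0, z1, z2⟩ := pull Y Y' u u' inj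
    (fun a => by
      obtain ⟨w, rfl⟩ := Ideal.Quotient.mk_surjective a
      exact (res_eq hk (Y.π.comp ψ) (fun c => (congrArg Y.π (h.c c)).trans (Y.alg c)) w).trans
        (res_eq hk (Y'.π.comp ψ') (fun c => (congrArg Y'.π (h'.c c)).trans (Y'.alg c)) w).symm)
    ((Ideal.Quotient.mk I).comp C) (fun g => (m g).map (Ideal.Quotient.mk I))
    (fun g => (a g).map (Ideal.Quotient.mk I)) (fun g => (b g).map (Ideal.Quotient.mk I))
    h.c h'.c hm hm' ha ha' hb hb'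
  refine ⟨Z, (closed_ty hC Q).pull _ _ _ Z Y Y' u u' z1 z2 inj hY hY', fun o => by rw [z0]; rfl,
    fun s => sub_eq_zero.1 (inj _ ?_ ?_)⟩
  · rw [map_sub, v0_hom K G r z1, sub_eq_zero]
    exact h.x s
  · rw [map_sub, v0_hom K G r z2, sub_eq_zero]
    exact h'.x s

/-- **the universal property**, for a ring with residue field `F` -/
theorem univ [IsLocalRing O] [IsNoetherianRing O] [IsAdicComplete (maximalIdeal O) O] [Finite F]
    [CharP F 2] [Fintype β] [∀ b, Fintype (τ b)]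
    (hk : ∀ c, S.red c = 0 ↔ c ∈ maximalIdeal O) (hC : Closed (ClG L S)) {q : Fin r → ℕ}
    {τ' : Fin r → GQ} (r1 : ∀ g, S.rb g = 1)
    (hg : Gen2 S.T (Finset.univ.image q) (Fin.append G.γ τ')) [Finite B]
    (π : B →+* F) (loc : ∀ b, π b ≠ 0 → IsUnit b) (ψ : PS O (V0 τ L n S.T r) →+* B)
    (hπ : ∀ c, π (ψ (C c)) = S.red c) (hψ : Kn K G r q τ' ≤ RingHom.ker ψ) :
    ∃ X : Obj S B, Ty (ClG L S) (Finset.univ.image q) B X ∧ X.π = π ∧
      Hm X.ι (v0 K G r X.ι X.ρ X.α X.β τ') ψ := by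
  classical
  let W := PS O (V0 τ L n S.T r)
  let π0 : W →+* F := S.red.comp constantCoeff
  have km : RingHom.ker π0 = maximalIdeal W := Ideal.ext fun f =>
    (hk _).trans (P022D.L2b.mem_max_iff f).symm
  have op : ∀ (A : Type) [CommRing A] [Finite A] (p : A →+* F) (φ : W →+* A),
      (∀ b, p b ≠ 0 → IsUnit b) → (∀ c, p (φ (C c)) = S.red c) →
      ∃ k, maximalIdeal W ^ k ≤ RingHom.ker φ := fun A _ _ p φ h1 h2 => by
    obtain ⟨n, hn⟩ := ker_nil p h1
    have : maximalIdeal W ≤ (RingHom.ker p).comap φ := fun f hf => by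
      rw [← km] at hf
      exact (res_eq hk (p.comp φ) h2 f).trans hf
    refine ⟨n, (Ideal.pow_right_mono this n).trans ((Ideal.le_comap_pow _ n).trans ?_)⟩
    rw [hn]
    exact le_rfl
  let 𝓘 : Set (Ideal W) := {I | ∃ (A : Type) (_ : CommRing A) (X : Obj S A) (φ : W →+* A),
    Ty (ClG L S) (Finset.univ.image q) A X ∧ Hm X.ι (v0 K G r X.ι X.ρ X.α X.β τ') φ ∧
      RingHom.ker φ = I}
  have hK : sInf 𝓘 ≤ Kn K G r q τ' := fun f hf A _ j v φ ⟨X, a, b, c⟩ d => by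
    subst b
    subst c
    exact Submodule.mem_sInf.1 hf _ ⟨A, _, X, φ, a, d, rfl⟩
  have hne : 𝓘.Nonempty := by
    by_contra hn
    rw [Set.not_nonempty_iff_eq_empty] at hn
    have : ψ (C 1) = 0 := hψ (hK (by rw [hn, sInf_empty]; trivial))
    have e := hπ 1
    rw [this, map_zero, map_one] at e
    exact zero_ne_one e
  have cn : ∀ I ∈ 𝓘, ∀ I' ∈ 𝓘, ∃ Z : Obj S (W ⧸ (I ⊓ I')),
      Ty (ClG L S) (Finset.univ.image q) _ Z ∧
      Hm Z.ι (v0 K G r Z.ι Z.ρ Z.α Z.β τ') (Ideal.Quotient.mk (I ⊓ I')) := by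
    rintro _ ⟨A, _, X, φ, a, b, rfl⟩ _ ⟨A', _, X', φ', a', b', rfl⟩
    exact can K G r hk hC r1 hg a a' b b' _ fun w => Iff.rfl
  have := P022D.L2b.isAdicCompleteV (σ := V0 τ L n S.T r) (V := O) inferInstance
  obtain ⟨N, hN⟩ := op B π ψ loc hπ
  obtain ⟨I, h1, h2⟩ := P022D.L2b.chevalley (maximalIdeal W) (fun k => by
      have : Finite (W ⧸ maximalIdeal W) := km ▸ Finite.of_injective _ π0.kerLift_injective
      exact Ideal.finite_quotient_pow (IsNoetherian.noetherian _) k) 𝓘 hne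
    (fun I h I' h' => by
      obtain ⟨Z, a, b⟩ := cn I h I' h'
      exact ⟨_, ⟨_, _, Z, _, a, b, Ideal.mk_ker⟩, inf_le_left, inf_le_right⟩)
    (by
      rintro _ ⟨A, _, X, φ, a, b, rfl⟩
      haveI := X.fin
      exact op A X.π φ X.loc fun c => (congrArg X.π (b.c c)).trans (X.alg c)) N
  have h3 : I ⊓ I ≤ RingHom.ker ψ := inf_le_left.trans (h2.trans (sup_le (hK.trans hψ) hN))
  obtain ⟨Z, a, b⟩ := cn I h1 I h1
  let u := Ideal.Quotient.lift (I ⊓ I) ψ fun w hw => h3 hw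
  have hp : ∀ x, π (u x) = Z.π x := fun x => by
    obtain ⟨w, rfl⟩ := Ideal.Quotient.mk_surjective x
    exact (res_eq hk (π.comp ψ) hπ w).trans (res_eq hk (Z.π.comp (Ideal.Quotient.mk _))
      (fun c => (congrArg Z.π (b.c c)).trans (Z.alg c)) w).symm
  have hh := hom_map Z u π inferInstance loc hp
  refine ⟨omap Z u π inferInstance loc hp, (closed_ty hC _).push _ _ Z _ u hh a, rfl,
    fun o => congrArg u (b.c o), fun s => ?_⟩
  rw [← v0_hom K G r hh, ← b.x]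
  rfl

/-- **the universal property**, for any finite ring: the object lives over the image -/
theorem univB [IsLocalRing O] [IsNoetherianRing O] [IsAdicComplete (maximalIdeal O) O] [Finite F]
    [CharP F 2] [Fintype β] [∀ b, Fintype (τ b)]
    (hk : ∀ c, S.red c = 0 ↔ c ∈ maximalIdeal O) (hC : Closed (ClG L S)) {q : Fin r → ℕ}
    {τ' : Fin r → GQ} (r1 : ∀ g, S.rb g = 1)
    (hg : Gen2 S.T (Finset.univ.image q) (Fin.append G.γ τ')) [Finite B]
    [Nontrivial B] (ψ : PS O (V0 τ L n S.T r) →+* B) (hψ : Kn K G r q τ' ≤ RingHom.ker ψ) :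
    ∃ X : Obj S (PS O (V0 τ L n S.T r) ⧸ RingHom.ker ψ),
      Ty (ClG L S) (Finset.univ.image q) _ X ∧
      Hm X.ι (v0 K G r X.ι X.ρ X.α X.β τ') (Ideal.Quotient.mk _) ∧
      Hm (ψ.kerLift.comp X.ι) (v0 K G r (ψ.kerLift.comp X.ι) (fun g => (X.ρ g).map ψ.kerLift)
        (fun l => (X.α l).map ψ.kerLift) (fun l => (X.β l).map ψ.kerLift) τ') ψ := by
  haveI : Finite (PS O (V0 τ L n S.T r) ⧸ RingHom.ker ψ) :=
    Finite.of_injective _ ψ.kerLift_injective
  have hm := le_maximalIdeal (RingHom.ker_ne_top ψ)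
  have k0 : ∀ f : PS O (V0 τ L n S.T r), S.red (constantCoeff f) = 0 ↔ f ∈ maximalIdeal _ :=
    fun f => (hk _).trans (P022D.L2b.mem_max_iff f).symm
  obtain ⟨X, a, -, b⟩ := univ K G r hk hC r1 hg
    (Ideal.Quotient.lift (RingHom.ker ψ) (S.red.comp constantCoeff) fun f hf => (k0 f).2 (hm hf))
    (fun x hx => by
      obtain ⟨w, rfl⟩ := Ideal.Quotient.mk_surjective x
      exact (notMem_maximalIdeal.1 fun e => hx ((k0 w).2 e)).map _)
    (Ideal.Quotient.mk _) (fun c => congrArg S.red (constantCoeff_C c))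
    (hψ.trans Ideal.mk_ker.ge)
  refine ⟨X, a, b, fun o => ?_, fun s => ?_⟩
  · rw [RingHom.comp_apply, ← b.c, RingHom.kerLift_mk]
  · rw [← v0_map, ← b.x, RingHom.kerLift_mk]

end Vale.Agent.P022S.Tw
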